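import Mathlib

/-! P050: Sidorenko inequality for positive definite Cayley kernels. -/

open Finset

namespace Vale.Agent.P050

variable {G : Type} [AddCommGroup G] [Fintype G]

theorem char_prod_eq {V E : Type} [Fintype V] [Fintype E] [DecidableEq V]
    (u v : E → V) (χ : E → AddChar G ℂ) (x : V → G) :
    ∏ e, χ e (x (u e) - x (v e)) =
      ∏ w, ((∏ e, (if u e = w then χ e else 1) * (if v e = w then χ e else 1)⁻¹ : AddChar G ℂ))
        (x w) := by
  have h1 : ∀ w, ((∏ e, (if u e = w then χ e else 1) * (if v e = w then χ e else 1)⁻¹ :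
      AddChar G ℂ)) (x w) =
      ∏ e, ((if u e = w then χ e (x w) else 1) * (if v e = w then χ e (- x w) else 1)) := by
    intro w
    rw [AddChar.prod_apply]
    refine prod_congr rfl fun e _ => ?_
    rw [AddChar.mul_apply, AddChar.inv_apply]
    split_ifs <;> simp
  rw [prod_congr rfl fun w _ => h1 w, prod_comm]
  refine prod_congr rfl fun e _ => ?_
  rw [prod_mul_distrib, prod_ite_eq univ (u e), prod_ite_eq univ (v e), if_pos (mem_univ _),
    if_pos (mem_univ _), ← AddChar.map_add_eq_mul, sub_eq_add_neg]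

theorem sum_char_nonneg {V E : Type} [Fintype V] [Fintype E] [DecidableEq V]
    (u v : E → V) (χ : E → AddChar G ℂ) :
    0 ≤ (∑ x : V → G, ∏ e, χ e (x (u e) - x (v e))).re ∧
      (∑ x : V → G, ∏ e, χ e (x (u e) - x (v e))).im = 0 := by
  classical
  have h1 : ∑ x : V → G, ∏ e, χ e (x (u e) - x (v e)) =
      ∏ w : V, ∑ g : G, ((∏ e, (if u e = w then χ e else 1) *
        (if v e = w then χ e else 1)⁻¹ : AddChar G ℂ)) g := by
    rw [Finset.prod_univ_sum, Fintype.piFinset_univ]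
    exact sum_congr rfl fun x _ => char_prod_eq u v χ x
  have h2 : ∃ r : ℝ, 0 ≤ r ∧ ∑ x : V → G, ∏ e, χ e (x (u e) - x (v e)) = (r : ℂ) := by
    rw [h1]
    have h3 : ∀ w : V, ∃ r : ℝ, 0 ≤ r ∧ ∑ g : G, ((∏ e, (if u e = w then χ e else 1) *
        (if v e = w then χ e else 1)⁻¹ : AddChar G ℂ)) g = (r : ℂ) := by
      intro w
      rw [AddChar.sum_eq_ite]
      split_ifs
      · exact ⟨Fintype.card G, by positivity, by simp⟩
      · exact ⟨0, le_rfl, by simp⟩
    choose r hr0 hr using h3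
    refine ⟨∏ w, r w, prod_nonneg fun w _ => hr0 w, ?_⟩
    rw [Complex.ofReal_prod]
    exact prod_congr rfl fun w _ => hr w
  obtain ⟨r, hr0, hr⟩ := h2
  rw [hr]
  exact ⟨by simpa using hr0, by simp⟩

theorem cayley {V E : Type} [Fintype V] [Fintype E] [DecidableEq V]
    (u v : E → V) (c : E → AddChar G ℂ → ℝ) (hc : ∀ e χ, 0 ≤ c e χ)
    (f : E → G → ℝ) (hf : ∀ e x, (f e x : ℂ) = ∑ χ, (c e χ : ℂ) * χ x) :
    ∏ e, (∑ g, f e g) / Fintype.card G ≤
      (∑ x : V → G, ∏ e, f e (x (u e) - x (v e))) / (Fintype.card G : ℝ) ^ Fintype.card V := by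
  classical
  have hG : (0 : ℝ) < Fintype.card G := by exact_mod_cast Fintype.card_pos
  -- mean value is the trivial coefficient
  have h1 : ∀ e, (∑ g, f e g) / Fintype.card G = c e 0 := by
    intro e
    have h2 : ((∑ g, f e g : ℝ) : ℂ) = (Fintype.card G : ℂ) * c e 0 := by
      push_cast
      rw [sum_congr rfl fun g _ => hf e g, sum_comm]
      rw [sum_eq_single (0 : AddChar G ℂ)]
      · rw [← mul_sum, AddChar.sum_eq_ite, if_pos rfl, mul_comm]
      · intro χ _ hχ
        rw [← mul_sum, AddChar.sum_eq_ite, if_neg hχ, mul_zero]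
      · intro h
        exact absurd (mem_univ _) h
    have h3 : (∑ g, f e g : ℝ) = (Fintype.card G : ℝ) * c e 0 := by
      exact_mod_cast h2
    rw [h3]
    field_simp
  -- expansion
  have h4 : ((∑ x : V → G, ∏ e, f e (x (u e) - x (v e)) : ℝ) : ℂ) =
      ∑ φ : E → AddChar G ℂ, ((∏ e, c e (φ e) : ℝ) : ℂ) *
        ∑ x : V → G, ∏ e, φ e (x (u e) - x (v e)) := by
    push_cast
    have h5 : ∀ x : V → G, ∏ e, (f e (x (u e) - x (v e)) : ℂ) =
        ∑ φ : E → AddChar G ℂ, (∏ e, (c e (φ e) : ℂ)) * ∏ e, φ e (x (u e) - x (v e)) := by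
      intro x
      rw [prod_congr rfl fun e _ => hf e _, Finset.prod_univ_sum, Fintype.piFinset_univ]
      exact sum_congr rfl fun φ _ => prod_mul_distrib
    rw [sum_congr rfl fun x _ => h5 x, sum_comm]
    exact sum_congr rfl fun φ _ => by rw [mul_sum]
  have h6 : (∑ x : V → G, ∏ e, f e (x (u e) - x (v e))) =
      ∑ φ : E → AddChar G ℂ, (∏ e, c e (φ e)) *
        (∑ x : V → G, ∏ e, φ e (x (u e) - x (v e))).re := by
    have h7 := congrArg Complex.re h4
    rw [Complex.ofReal_re, Complex.re_sum] at h7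
    rw [h7]
    exact sum_congr rfl fun φ _ => Complex.re_ofReal_mul _ _
  have h8 : (∏ e, c e 0) * (Fintype.card G : ℝ) ^ Fintype.card V ≤
      ∑ x : V → G, ∏ e, f e (x (u e) - x (v e)) := by
    rw [h6]
    have h9 := single_le_sum (s := (univ : Finset (E → AddChar G ℂ)))
      (f := fun φ => (∏ e, c e (φ e)) * (∑ x : V → G, ∏ e, φ e (x (u e) - x (v e))).re)
      (fun φ _ => mul_nonneg (prod_nonneg fun e _ => hc e _) (sum_char_nonneg u v φ).1)
      (mem_univ (fun _ => (0 : AddChar G ℂ)))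
    refine le_trans (le_of_eq ?_) h9
    have h10 : ∑ x : V → G, ∏ e : E, ((0 : AddChar G ℂ)) (x (u e) - x (v e)) =
        (((Fintype.card G : ℝ) ^ Fintype.card V : ℝ) : ℂ) := by simp
    show _ = (∏ e, c e 0) * (∑ x : V → G, ∏ e : E, ((0 : AddChar G ℂ)) (x (u e) - x (v e))).re
    rw [h10, Complex.ofReal_re]
  rw [prod_congr rfl fun e _ => h1 e, le_div_iff₀ (by positivity)]
  exact h8

end Vale.Agent.P050
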