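import Vale.Agent.Lib.P050.Sub

/-! P050: counting form. -/

open Finset

namespace Vale.Agent.P050

variable {G : Type} [AddCommGroup G] [Fintype G]

theorem count {V E : Type} [Fintype V] [Fintype E] (u v : E → V) (S : Set G) :
    ((Nat.card S : ℝ) / Fintype.card G) ^ (2 * Fintype.card E) ≤
      (Nat.card {z : (V → G) × (E → G) // ∀ e, z.1 (u e) - z.2 e ∈ S ∧ z.1 (v e) - z.2 e ∈ S} : ℝ)
        / (Fintype.card G : ℝ) ^ (Fintype.card V + Fintype.card E) := by
  classical
  have h0 := subdivision (G := G) u v (fun (_ : E) g => if g ∈ S then (1 : ℝ) else 0)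
  have h1 : ∑ g : G, (if g ∈ S then (1 : ℝ) else 0) = Nat.card S := by
    rw [Nat.card_eq_fintype_card, Fintype.card_subtype, Finset.card_filter, Nat.cast_sum]
    exact sum_congr rfl fun g _ => by split_ifs <;> simp
  have h2 : (Nat.card {z : (V → G) × (E → G) //
      ∀ e, z.1 (u e) - z.2 e ∈ S ∧ z.1 (v e) - z.2 e ∈ S} : ℝ) =
      ∑ x : V → G, ∑ y : E → G, ∏ e, ((if x (u e) - y e ∈ S then (1 : ℝ) else 0) *
        (if x (v e) - y e ∈ S then (1 : ℝ) else 0)) := by
    rw [Nat.card_eq_fintype_card, Fintype.card_subtype, Finset.card_filter, Nat.cast_sum,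
      Fintype.sum_prod_type]
    refine sum_congr rfl fun x _ => sum_congr rfl fun y _ => ?_
    by_cases h : ∀ e, x (u e) - y e ∈ S ∧ x (v e) - y e ∈ S
    · rw [if_pos h, Nat.cast_one]
      symm
      refine prod_eq_one fun e _ => ?_
      rw [if_pos (h e).1, if_pos (h e).2, one_mul]
    · rw [if_neg h, Nat.cast_zero]
      push Not at h
      obtain ⟨e, he⟩ := h
      symm
      apply prod_eq_zero (mem_univ e)
      by_cases h3 : x (u e) - y e ∈ S
      · rw [if_neg (he h3), mul_zero]
      · rw [if_neg h3, zero_mul]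
  rw [h2]
  refine le_trans (le_of_eq ?_) h0
  rw [prod_const, card_univ, h1, pow_mul]

end Vale.Agent.P050
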