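import Vale.Agent.Lib.P050.Cayley

/-! P050: subdivisions against Cayley kernels. -/

open Finset ComplexConjugate

namespace Vale.Agent.P050

variable {G : Type} [AddCommGroup G] [Fintype G]

theorem corr_posdef (f : G → ℝ) (z : G) :
    ((∑ y, f (z + y) * f y : ℝ) : ℂ) =
      ∑ χ : AddChar G ℂ, ((‖∑ b, (f b : ℂ) * χ b‖ ^ 2 / Fintype.card G : ℝ) : ℂ) * χ z := by
  classical
  have hG : (Fintype.card G : ℂ) ≠ 0 := by
    exact_mod_cast (Fintype.card_pos (α := G)).ne'
  have h1 : ∀ χ : AddChar G ℂ, ((‖∑ b, (f b : ℂ) * χ b‖ ^ 2 / Fintype.card G : ℝ) : ℂ) * χ z =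
      (Fintype.card G : ℂ)⁻¹ * ∑ b, ∑ a, ((f b * f a : ℝ) : ℂ) * χ (z + b - a) := by
    intro χ
    have h2 : ((‖∑ b, (f b : ℂ) * χ b‖ ^ 2 : ℝ) : ℂ) =
        (∑ b, (f b : ℂ) * χ b) * (∑ a, (f a : ℂ) * χ (-a)) := by
      rw [← Complex.normSq_eq_norm_sq, ← Complex.mul_conj, map_sum]
      congr 1
      refine sum_congr rfl fun a _ => ?_
      rw [map_mul, Complex.conj_ofReal, AddChar.map_neg_eq_conj]
    rw [Complex.ofReal_div, h2, sum_mul_sum, Complex.ofReal_natCast, div_mul_eq_mul_div,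
      div_eq_inv_mul, sum_mul]
    congr 1
    refine sum_congr rfl fun b _ => ?_
    rw [sum_mul]
    refine sum_congr rfl fun a _ => ?_
    rw [sub_eq_add_neg, AddChar.map_add_eq_mul, AddChar.map_add_eq_mul, Complex.ofReal_mul]
    ring
  rw [sum_congr rfl fun χ _ => h1 χ, ← mul_sum]
  have h3 : ∑ χ : AddChar G ℂ, ∑ b, ∑ a, ((f b * f a : ℝ) : ℂ) * χ (z + b - a) =
      ∑ b, ∑ a, ((f b * f a : ℝ) : ℂ) * ∑ χ : AddChar G ℂ, χ (z + b - a) := by
    rw [sum_comm]
    refine sum_congr rfl fun b _ => ?_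
    rw [sum_comm]
    exact sum_congr rfl fun a _ => by rw [mul_sum]
  rw [h3]
  have h4 : ∀ b, ∑ a, ((f b * f a : ℝ) : ℂ) * ∑ χ : AddChar G ℂ, χ (z + b - a) =
      (Fintype.card G : ℂ) * ((f (z + b) * f b : ℝ) : ℂ) := by
    intro b
    rw [sum_eq_single (z + b)]
    · rw [AddChar.sum_apply_eq_ite, if_pos (sub_self _)]
      push_cast
      ring
    · intro a _ ha
      rw [AddChar.sum_apply_eq_ite, if_neg (fun h => ha (sub_eq_zero.1 h).symm), mul_zero]
    · intro h
      exact absurd (mem_univ _) h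
  rw [sum_congr rfl fun b _ => h4 b, ← mul_sum, ← mul_assoc, inv_mul_cancel₀ hG, one_mul]
  push_cast
  rfl

/-- one-subdivisions against arbitrary Cayley kernels -/
theorem subdivision {V E : Type} [Fintype V] [Fintype E] [DecidableEq V] [DecidableEq E]
    (u v : E → V) (f : E → G → ℝ) :
    ∏ e, ((∑ g, f e g) / Fintype.card G) ^ 2 ≤
      (∑ x : V → G, ∑ y : E → G, ∏ e, (f e (x (u e) - y e) * f e (x (v e) - y e))) /
        (Fintype.card G : ℝ) ^ (Fintype.card V + Fintype.card E) := by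
  classical
  have hG : (0 : ℝ) < Fintype.card G := by exact_mod_cast Fintype.card_pos
  have h1 := cayley (G := G) u v
    (fun e χ => ‖∑ b, (f e b : ℂ) * χ b‖ ^ 2 / Fintype.card G)
    (fun e χ => by positivity) (fun e z => ∑ y, f e (z + y) * f e y)
    (fun e z => corr_posdef (f e) z)
  have h2 : ∀ x : V → G, ∑ y : E → G, ∏ e, (f e (x (u e) - y e) * f e (x (v e) - y e)) =
      ∏ e, ∑ y, f e (x (u e) - x (v e) + y) * f e y := by
    intro x
    rw [← Fintype.piFinset_univ, ← Finset.prod_univ_sum (fun _ => univ)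
      (fun e y => f e (x (u e) - y) * f e (x (v e) - y))]
    refine prod_congr rfl fun e _ => ?_
    refine Fintype.sum_equiv (Equiv.subLeft (x (v e))) _ _ fun y => ?_
    simp only [Equiv.subLeft_apply]
    rw [sub_add_sub_cancel]
  have h3 : ∀ e, (∑ z, ∑ y, f e (z + y) * f e y) / (Fintype.card G : ℝ) =
      ((∑ g, f e g) / Fintype.card G) ^ 2 * Fintype.card G := by
    intro e
    have h4 : ∑ z, ∑ y, f e (z + y) * f e y = (∑ g, f e g) * ∑ g, f e g := by
      rw [sum_comm, mul_sum]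
      refine sum_congr rfl fun y _ => ?_
      rw [← sum_mul]
      congr 1
      exact Fintype.sum_equiv (Equiv.addRight y) _ _ fun z => rfl
    rw [h4]
    field_simp
  rw [prod_congr rfl fun e _ => h3 e, prod_mul_distrib, prod_const, card_univ] at h1
  rw [sum_congr rfl fun x _ => h2 x, pow_add]
  rw [le_div_iff₀ (by positivity)] at h1 ⊢
  calc _ = _ := by ring
    _ ≤ _ := h1

end Vale.Agent.P050
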